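import Vale.Agent.P067.Full.Finite
import Vale.Agent.HDX.Q.LocalGlobal

/-!
Averaging bounded cones over the colour-preserving symmetries gives expansion of the links.
-/

namespace Vale.Agent.P067.Full.Local

open Finset Vale.Agent.HDX Vale.Agent.HDX.Q

set_option linter.unusedSectionVars false

variable {α : Type*} [DecidableEq α] {r : ℕ} {col : α → Fin r} {F : Finset (Finset α)}

lemma rainbow_injOn (hR : Rainbow r col F) {τ : Finset α} (hτ : τ ∈ F) {x y : α} (hx : x ∈ τ)
    (hy : y ∈ τ) (h : col x = col y) : x = y :=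
  (hR.2 τ hτ).2 (Finset.mem_coe.mpr hx) (Finset.mem_coe.mpr hy) h

lemma mem_vertices {x : α} : x ∈ vertices F ↔ ∃ τ ∈ F, x ∈ τ := by
  simp [vertices]

/-- A permutation of the vertices, as a permutation of the ambient type. -/
def lift (F : Finset (Finset α)) (g : Equiv.Perm {x // x ∈ vertices F}) : Equiv.Perm α :=
  Equiv.Perm.ofSubtype g

/-- The colour-preserving symmetries fixing a set pointwise. -/
def autos (col : α → Fin r) (F : Finset (Finset α)) (ρ : Finset α) :
    Finset (Equiv.Perm {x // x ∈ vertices F}) :=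
  Finset.univ.filter fun g => F.image (Finset.image (lift F g)) = F ∧
    (∀ x ∈ vertices F, col (lift F g x) = col x) ∧ ∀ x ∈ ρ, lift F g x = x

lemma mem_autos {ρ : Finset α} {g : Equiv.Perm {x // x ∈ vertices F}} :
    g ∈ autos col F ρ ↔ F.image (Finset.image (lift F g)) = F ∧
      (∀ x ∈ vertices F, col (lift F g x) = col x) ∧ ∀ x ∈ ρ, lift F g x = x := by
  simp [autos]

lemma image_lift_mem {e : Equiv.Perm α} (h : F.image (Finset.image e) = F) {τ : Finset α}
    (hτ : τ ∈ F) : τ.image e ∈ F := by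
  have h' := Finset.mem_image_of_mem (Finset.image e) hτ
  rwa [h] at h'

lemma image_comp' (e e' : Equiv.Perm α) (σ : Finset α) :
    σ.image (e * e' : Equiv.Perm α) = (σ.image e').image e := by
  rw [Finset.image_image]
  rfl

lemma image_inv_image (e : Equiv.Perm α) (σ : Finset α) :
    (σ.image e).image (e⁻¹ : Equiv.Perm α) = σ := by
  rw [← image_comp', inv_mul_cancel]
  exact Finset.image_id

lemma image_image_inv (e : Equiv.Perm α) (σ : Finset α) :
    (σ.image (e⁻¹ : Equiv.Perm α)).image e = σ := by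
  rw [← image_comp', mul_inv_cancel]
  exact Finset.image_id

lemma mem_vertices_lift {g : Equiv.Perm {x // x ∈ vertices F}}
    (h : F.image (Finset.image (lift F g)) = F) {x : α} (hx : x ∈ vertices F) :
    lift F g x ∈ vertices F := by
  obtain ⟨τ, hτ, hxτ⟩ := mem_vertices.mp hx
  exact mem_vertices.mpr ⟨_, image_lift_mem h hτ, Finset.mem_image_of_mem _ hxτ⟩

lemma one_mem_autos (ρ : Finset α) : 1 ∈ autos col F ρ := by
  have h : lift F 1 = 1 := map_one _
  refine mem_autos.mpr ⟨?_, fun x _ => by rw [h]; rfl, fun x _ => by rw [h]; rfl⟩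
  rw [h]
  have : (fun τ : Finset α => τ.image (1 : Equiv.Perm α)) = id := funext fun τ => Finset.image_id
  rw [show (Finset.image ⇑(1 : Equiv.Perm α) : Finset α → Finset α) = id from this]
  exact Finset.image_id

lemma mul_mem_autos {ρ : Finset α} {g g' : Equiv.Perm {x // x ∈ vertices F}}
    (hg : g ∈ autos col F ρ) (hg' : g' ∈ autos col F ρ) : g * g' ∈ autos col F ρ := by
  obtain ⟨h1, h2, h3⟩ := mem_autos.mp hg
  obtain ⟨h1', h2', h3'⟩ := mem_autos.mp hg'
  have h : lift F (g * g') = lift F g * lift F g' := map_mul _ _ _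
  refine mem_autos.mpr ⟨?_, fun x hx => ?_, fun x hx => ?_⟩
  · rw [h]
    have hc : F.image (Finset.image ⇑(lift F g * lift F g')) =
        (F.image (Finset.image ⇑(lift F g'))).image (Finset.image ⇑(lift F g)) := by
      rw [Finset.image_image]
      exact Finset.image_congr fun τ _ => image_comp' _ _ τ
    rw [hc, h1', h1]
  · rw [h, Equiv.Perm.mul_apply, h2 _ (mem_vertices_lift h1' hx), h2' x hx]
  · rw [h, Equiv.Perm.mul_apply, h3' x hx, h3 x hx]

lemma inv_mem_autos {ρ : Finset α} {g : Equiv.Perm {x // x ∈ vertices F}}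
    (hg : g ∈ autos col F ρ) : g⁻¹ ∈ autos col F ρ := by
  classical
  have hpow : ∀ n : ℕ, g ^ n ∈ autos col F ρ := by
    intro n
    induction n with
    | zero => simpa using one_mem_autos ρ
    | succ n ih => rw [pow_succ]; exact mul_mem_autos ih hg
  have h : g⁻¹ = g ^ (orderOf g - 1) := by
    refine inv_eq_of_mul_eq_one_left ?_
    rw [← pow_succ, Nat.sub_add_cancel (orderOf_pos g), pow_orderOf_eq_one]
  rw [h]
  exact hpow _

lemma lift_inv (g : Equiv.Perm {x // x ∈ vertices F}) : lift F g⁻¹ = (lift F g)⁻¹ :=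
  map_inv _ _

/-- The symmetries are transitive on the top faces through a set. -/
lemma exists_auto (hR : Rainbow r col F) (hH : Homog col F) {ρ T X : Finset α} (hT : T ∈ F)
    (hρT : ρ ⊆ T) (hX : X ∈ F) (hρX : ρ ⊆ X) :
    ∃ g ∈ autos col F ρ, T.image (lift F g) = X := by
  obtain ⟨e, he, hecol, heT⟩ := hH T hT X hX
  have hvert : ∀ x, e x ∈ vertices F ↔ x ∈ vertices F := by
    intro x
    constructor
    · intro hx
      obtain ⟨τ', hτ', hxτ'⟩ := mem_vertices.mp hx
      rw [← he, Finset.mem_image] at hτ'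
      obtain ⟨τ, hτ, rfl⟩ := hτ'
      obtain ⟨y, hy, hyx⟩ := Finset.mem_image.mp hxτ'
      exact mem_vertices.mpr ⟨τ, hτ, e.injective hyx ▸ hy⟩
    · intro hx
      obtain ⟨τ, hτ, hxτ⟩ := mem_vertices.mp hx
      exact mem_vertices.mpr ⟨_, image_lift_mem he hτ, Finset.mem_image_of_mem _ hxτ⟩
  set g : Equiv.Perm {x // x ∈ vertices F} := Equiv.Perm.subtypePerm e hvert with hg
  have hlift : ∀ x ∈ vertices F, lift F g x = e x := fun x hx => by
    rw [lift, Equiv.Perm.ofSubtype_apply_of_mem g hx]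
    rfl
  have himg : ∀ τ ∈ F, τ.image (lift F g) = τ.image e := fun τ hτ =>
    Finset.image_congr fun x hx => hlift x (mem_vertices.mpr ⟨τ, hτ, hx⟩)
  refine ⟨g, mem_autos.mpr ⟨?_, fun x hx => by rw [hlift x hx]; exact hecol x, fun x hx => ?_⟩,
    by rw [himg T hT]; exact heT⟩
  · conv_rhs => rw [← he]
    exact Finset.image_congr himg
  · rw [hlift x (mem_vertices.mpr ⟨T, hT, hρT hx⟩)]
    exact rainbow_injOn hR hX (heT ▸ Finset.mem_image_of_mem _ (hρT hx)) (hρX hx) (hecol x)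

lemma cnt_map {ρ : Finset α} {g : Equiv.Perm {x // x ∈ vertices F}} (hg : g ∈ autos col F ρ)
    (σ : Finset α) : cnt F (σ.image (lift F g)) = cnt F σ := by
  obtain ⟨h1, -, -⟩ := mem_autos.mp hg
  obtain ⟨h1', -, -⟩ := mem_autos.mp (inv_mem_autos hg)
  rw [lift_inv] at h1'
  refine Finset.card_nbij' (fun τ => τ.image ((lift F g)⁻¹ : Equiv.Perm α))
    (fun τ => τ.image (lift F g)) ?_ ?_ ?_ ?_
  · intro τ hτ
    obtain ⟨hτF, hsub⟩ := Finset.mem_filter.mp hτ
    refine Finset.mem_filter.mpr ⟨image_lift_mem h1' hτF, ?_⟩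
    rw [← image_inv_image (lift F g) σ]
    exact Finset.image_subset_image hsub
  · intro τ hτ
    obtain ⟨hτF, hsub⟩ := Finset.mem_filter.mp hτ
    exact Finset.mem_filter.mpr ⟨image_lift_mem h1 hτF, Finset.image_subset_image hsub⟩
  · exact fun τ _ => image_image_inv _ τ
  · exact fun τ _ => image_inv_image _ τ

/-- The symmetries are equidistributed on the top faces through `ρ`. -/
lemma autos_equi (hR : Rainbow r col F) (hH : Homog col F) {ρ T X : Finset α}
    (hT : T ∈ F) (hρT : ρ ⊆ T) (hX : X ∈ F) (hρX : ρ ⊆ X) :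
    cnt F ρ * ((autos col F ρ).filter fun g => T.image (lift F g) = X).card =
      (autos col F ρ).card := by
  set H := autos col F ρ with hHdef
  set Lk := F.filter fun τ => ρ ⊆ τ with hLk
  have hsame : ∀ Y ∈ Lk, (H.filter fun g => T.image (lift F g) = Y).card =
      (H.filter fun g => T.image (lift F g) = X).card := by
    intro Y hY
    obtain ⟨hYF, hρY⟩ := Finset.mem_filter.mp hY
    obtain ⟨k, hk, hkY⟩ := exists_auto hR hH hX hρX hYF hρY
    refine Finset.card_nbij' (fun g => k⁻¹ * g) (fun g => k * g) ?_ ?_ ?_ ?_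
    · intro g hg
      obtain ⟨hg1, hg2⟩ := Finset.mem_filter.mp hg
      refine Finset.mem_filter.mpr ⟨mul_mem_autos (inv_mem_autos hk) hg1, ?_⟩
      rw [show lift F (k⁻¹ * g) = lift F k⁻¹ * lift F g from map_mul _ _ _, image_comp', hg2,
        lift_inv, ← hkY, image_inv_image]
    · intro g hg
      obtain ⟨hg1, hg2⟩ := Finset.mem_filter.mp hg
      refine Finset.mem_filter.mpr ⟨mul_mem_autos hk hg1, ?_⟩
      rw [show lift F (k * g) = lift F k * lift F g from map_mul _ _ _, image_comp', hg2, hkY]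
    · exact fun g _ => mul_inv_cancel_left k g
    · exact fun g _ => inv_mul_cancel_left k g
  have hmap : ∀ g ∈ H, T.image (lift F g) ∈ Lk := by
    intro g hg
    obtain ⟨h1, -, h3⟩ := mem_autos.mp hg
    exact Finset.mem_filter.mpr ⟨image_lift_mem h1 hT, fun x hx =>
      Finset.mem_image.mpr ⟨x, hρT hx, h3 x hx⟩⟩
  rw [Finset.card_eq_sum_card_fiberwise hmap, Finset.sum_congr rfl hsame, Finset.sum_const,
    smul_eq_mul]
  rfl

lemma autos_fibre (hR : Rainbow r col F) (hH : Homog col F) {ρ τ : Finset α} (hτ : IsFace F τ)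
    (hρτ : ρ ⊆ τ) (τ' : Finset α) :
    cnt F ρ * ((autos col F ρ).filter fun g => τ.image (lift F g) = τ').card ≤
      cnt F τ' * (autos col F ρ).card := by
  obtain ⟨T, hT, hτT⟩ := hτ
  set A := F.filter fun X => ρ ⊆ X ∧ τ' ⊆ X with hA
  calc cnt F ρ * ((autos col F ρ).filter fun g => τ.image (lift F g) = τ').card
      ≤ cnt F ρ * ∑ X ∈ A, ((autos col F ρ).filter fun g => T.image (lift F g) = X).card := by
        refine Nat.mul_le_mul_left _ ((Finset.card_le_card (t := A.biUnion fun X =>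
          (autos col F ρ).filter fun g => T.image (lift F g) = X) fun g hg => ?_).trans
          Finset.card_biUnion_le)
        obtain ⟨hg1, hg2⟩ := Finset.mem_filter.mp hg
        obtain ⟨h1, -, h3⟩ := mem_autos.mp hg1
        exact Finset.mem_biUnion.mpr ⟨_, Finset.mem_filter.mpr ⟨image_lift_mem h1 hT,
          fun x hx => Finset.mem_image.mpr ⟨x, hτT (hρτ hx), h3 x hx⟩,
          hg2 ▸ Finset.image_subset_image hτT⟩, Finset.mem_filter.mpr ⟨hg1, rfl⟩⟩
    _ = A.card * (autos col F ρ).card := by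
        rw [Finset.mul_sum]
        refine Finset.sum_const_nat fun X hX => ?_
        obtain ⟨h1, h2, -⟩ := Finset.mem_filter.mp hX
        exact autos_equi hR hH hT (hρτ.trans hτT) h1 h2
    _ ≤ cnt F τ' * (autos col F ρ).card :=
        Nat.mul_le_mul_right _ (Finset.card_le_card fun X hX => by
          obtain ⟨h1, -, h2⟩ := Finset.mem_filter.mp hX
          exact Finset.mem_filter.mpr ⟨h1, h2⟩)

/-- Some symmetry moves few faces onto a given family. -/
lemma exists_good_auto (hR : Rainbow r col F) (hH : Homog col F) {ρ : Finset α}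
    (hρ : IsFace F ρ) (hne0 : r ≠ 0) {c N : ℕ} (Ψ : Finset α → Finset (Finset α))
    (hΨ : ∀ σ ∈ faces F c, ρ ⊆ σ → (Ψ σ).card ≤ N ∧ ∀ τ ∈ Ψ σ, IsFace F τ ∧ ρ ⊆ τ)
    (S : Finset (Finset α)) :
    ∃ g ∈ autos col F ρ, mass F ((faces F c).filter fun σ =>
        ρ ⊆ σ ∧ ∃ τ ∈ Ψ σ, τ.image (lift F g) ∈ S) ≤ 2 ^ r * N * mass F S := by
  set H := autos col F ρ with hHdef
  have hLk0 : 0 < cnt F ρ := by
    obtain ⟨T, hT, hρT⟩ := hρ
    exact Finset.card_pos.mpr ⟨T, Finset.mem_filter.mpr ⟨hT, hρT⟩⟩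
  have hr : 0 < r := Nat.pos_of_ne_zero hne0
  have hF : ∀ τ ∈ F, τ.card = (r - 1) + 1 := fun τ hτ => by
    rw [(hR.2 τ hτ).1]; omega
  set B := (faces F c).filter fun σ => ρ ⊆ σ with hB
  have hBm : mass F B ≤ 2 ^ r * cnt F ρ := by
    have := sum_cnt_le hF ρ B fun σ hσ => (Finset.mem_filter.mp hσ).2
    rwa [show r - 1 + 1 = r by omega] at this
  have hswap : ∑ g ∈ H, mass F ((faces F c).filter fun σ =>
        ρ ⊆ σ ∧ ∃ τ ∈ Ψ σ, τ.image (lift F g) ∈ S) =
      ∑ σ ∈ B, cnt F σ * (H.filter fun g => ∃ τ ∈ Ψ σ, τ.image (lift F g) ∈ S).card := by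
    simp only [mass, hB, ← Finset.filter_filter]
    simp only [Finset.sum_filter (p := fun σ => ∃ τ ∈ Ψ σ, _), Finset.card_filter, Finset.mul_sum]
    rw [Finset.sum_comm]
    simp only [mul_ite, mul_one, mul_zero]
  have hhits : ∀ σ ∈ B, cnt F ρ *
      (H.filter fun g => ∃ τ ∈ Ψ σ, τ.image (lift F g) ∈ S).card ≤
        N * (mass F S * H.card) := by
    intro σ hσ
    obtain ⟨hσF, hρσ⟩ := Finset.mem_filter.mp hσ
    obtain ⟨hN, hΨσ⟩ := hΨ σ hσF hρσ
    calc cnt F ρ * (H.filter fun g => ∃ τ ∈ Ψ σ, τ.image (lift F g) ∈ S).card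
        ≤ cnt F ρ * ∑ τ ∈ Ψ σ, ∑ τ' ∈ S, (H.filter fun g => τ.image (lift F g) = τ').card := by
          refine Nat.mul_le_mul_left _ ((Finset.card_le_card (t := (Ψ σ).biUnion fun τ =>
            S.biUnion fun τ' => H.filter fun g => τ.image (lift F g) = τ') fun g hg => ?_).trans
            (Finset.card_biUnion_le.trans (Finset.sum_le_sum fun τ _ => Finset.card_biUnion_le)))
          obtain ⟨hg1, τ, hτ, hτS⟩ := Finset.mem_filter.mp hg
          exact Finset.mem_biUnion.mpr ⟨τ, hτ, Finset.mem_biUnion.mpr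
            ⟨_, hτS, Finset.mem_filter.mpr ⟨hg1, rfl⟩⟩⟩
      _ ≤ ∑ _τ ∈ Ψ σ, mass F S * H.card := by
          rw [Finset.mul_sum]
          refine Finset.sum_le_sum fun τ hτ => ?_
          rw [Finset.mul_sum, mass, Finset.sum_mul]
          exact Finset.sum_le_sum fun τ' _ =>
            autos_fibre hR hH (hΨσ τ hτ).1 (hΨσ τ hτ).2 τ'
      _ ≤ _ := by
          rw [Finset.sum_const, smul_eq_mul]
          exact Nat.mul_le_mul_right _ hN
  have hsum : ∑ g ∈ H, mass F ((faces F c).filter fun σ =>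
        ρ ⊆ σ ∧ ∃ τ ∈ Ψ σ, τ.image (lift F g) ∈ S) ≤ ∑ _g ∈ H, 2 ^ r * N * mass F S := by
    refine Nat.le_of_mul_le_mul_left ?_ hLk0
    rw [hswap, Finset.mul_sum, Finset.sum_const, smul_eq_mul]
    refine (Finset.sum_le_sum (g := fun σ => cnt F σ * (N * (mass F S * H.card)))
      fun σ hσ => ?_).trans ?_
    · rw [Nat.mul_left_comm]
      exact Nat.mul_le_mul_left _ (hhits σ hσ)
    · rw [← Finset.sum_mul]
      refine (Nat.mul_le_mul_right _ hBm).trans_eq ?_
      ring
  exact Finset.exists_le_of_sum_le ⟨1, one_mem_autos ρ⟩ hsum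

lemma cobd_map (e : Equiv.Perm α) (j : ℕ) (f : Finset α → ZMod 2) (τ : Finset α) :
    cobd j (fun η => f (η.image e)) τ = cobd j f (τ.image e) := by
  rw [cobd, cobd, show τ.image e = τ.map e.toEmbedding from
    (Finset.map_eq_image e.toEmbedding τ).symm,
    Finset.powersetCard_map, Finset.sum_map]
  refine Finset.sum_congr rfl fun η _ => congrArg f ?_
  exact (Finset.map_eq_image e.toEmbedding η).symm

/-- Evaluation of a cochain on a chain. -/
noncomputable def ev (f : Finset α → ZMod 2) : Ch α →ₗ[ZMod 2] ZMod 2 :=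
  Finsupp.linearCombination (ZMod 2) f

lemma ev_bd (f : Finset α → ZMod 2) {z : Ch α} {i : ℕ}
    (hz : Supp (fun τ => τ.card = i + 1) z) : ev f (bd z) = ev (cobd i f) z := by
  conv_lhs => rw [← Finsupp.sum_single z]
  conv_rhs => rw [← Finsupp.sum_single z]
  rw [Finsupp.sum, map_sum, map_sum, map_sum]
  refine Finset.sum_congr rfl fun τ hτ => ?_
  have : (Finsupp.single τ (z τ) : Ch α) = z τ • Finsupp.single τ 1 := by simp
  rw [this, map_smul, map_smul, map_smul, bd_single, map_sum]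
  simp [ev, cobd_eq_sum_erase f τ (hz τ hτ)]

lemma exists_of_ev_ne_zero {f : Finset α → ZMod 2} {z : Ch α} (h : ev f z ≠ 0) :
    ∃ τ ∈ z.support, f τ ≠ 0 := by
  by_contra hcon
  push Not at hcon
  refine h ?_
  rw [ev, Finsupp.linearCombination_apply]
  exact Finset.sum_eq_zero fun τ hτ => by simp [hcon τ hτ]

/-- A cone fills a face up to the coboundary of the cochain. -/
lemma cone_defect {ρ σ : Finset α} {c : ℕ} (hσf : IsFace F σ) (hσc : σ.card = c)
    (hne : ρ.Nonempty) {C : Finset α → Ch α}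
    (hC : ∀ σ, IsFace F (ρ ∪ σ) → Disjoint σ ρ → σ.card + ρ.card ≤ c →
      Supp (fun τ => τ.card = σ.card + 1 ∧ Disjoint τ ρ ∧ IsFace F (ρ ∪ τ)) (C σ) ∧
        bd (C σ) = Finsupp.single σ 1 + ∑ x ∈ σ, C (σ.erase x))
    {g : Finset α → ZMod 2} (hg : ∀ σ, g σ ≠ 0 → ρ ⊆ σ)
    (hval : g σ + cobd (c - 1)
      (fun η => if ρ ⊆ η then ev (fun τ => g (ρ ∪ τ)) (C (η \ ρ)) else 0) σ ≠ 0) :
    ρ ⊆ σ ∧ ∃ τ ∈ (C (σ \ ρ)).support, cobd c g (ρ ∪ τ) ≠ 0 := by
  set g' : Finset α → ZMod 2 := fun τ => g (ρ ∪ τ) with hg'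
  have hρσ : ρ ⊆ σ := by
    by_contra h
    refine hval ?_
    have h1 : g σ = 0 := by by_contra h'; exact h (hg σ h')
    have h2 : cobd (c - 1) (fun η => if ρ ⊆ η then ev g' (C (η \ ρ)) else 0) σ = 0 :=
      Finset.sum_eq_zero fun η hη =>
        if_neg fun h' => h (h'.trans (Finset.mem_powersetCard.mp hη).1)
    rw [h1, h2, add_zero]
  refine ⟨hρσ, ?_⟩
  have hc1 : 1 ≤ c := hσc ▸ (Finset.card_pos.mpr hne).trans_le (Finset.card_le_card hρσ)
  set σ₀ := σ \ ρ with hσ₀
  have hσun : ρ ∪ σ₀ = σ := Finset.union_sdiff_of_subset hρσ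
  have hdis : Disjoint σ₀ ρ := Finset.sdiff_disjoint
  have hσ₀c : σ₀.card + ρ.card = c := by
    rw [hσ₀, Finset.card_sdiff_of_subset hρσ, hσc]
    have := Finset.card_le_card hρσ
    omega
  obtain ⟨hsupp, hbd⟩ := hC σ₀ (hσun ▸ hσf) hdis (by omega)
  have hev : g σ + cobd (c - 1) (fun η => if ρ ⊆ η then ev g' (C (η \ ρ)) else 0) σ =
      ev (cobd σ₀.card g') (C σ₀) := by
    rw [← ev_bd g' (hsupp.mono fun τ h => h.1), hbd, map_add, map_sum,
      cobd_eq_sum_erase _ σ (i := c - 1) (by omega)]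
    congr 1
    · simp [ev, hg', hσun]
    · refine (Finset.sum_subset Finset.sdiff_subset fun x hx hx' => ?_).symm.trans
        (Finset.sum_congr rfl fun x hx => ?_)
      · have hxρ : x ∈ ρ := by
          by_contra h; exact hx' (Finset.mem_sdiff.mpr ⟨hx, h⟩)
        exact if_neg fun h => Finset.notMem_erase x σ (h hxρ)
      · obtain ⟨hxσ, hxρ⟩ := Finset.mem_sdiff.mp hx
        rw [if_pos (Finset.subset_erase.mpr ⟨hρσ, hxρ⟩)]
        congr 2
        rw [hσ₀]
        ext y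
        simp only [Finset.mem_sdiff, Finset.mem_erase]
        tauto
  obtain ⟨τ, hτ, hτne⟩ := exists_of_ev_ne_zero fun h0 => hval (hev.trans h0)
  obtain ⟨hτs, hτdis, -⟩ := hsupp τ hτ
  refine ⟨τ, hτ, ?_⟩
  have hτc : (ρ ∪ τ).card = c + 1 := by
    rw [Finset.card_union_of_disjoint hτdis.symm, hτs]; omega
  have hcob : cobd c g (ρ ∪ τ) = cobd σ₀.card g' τ := by
    rw [cobd_eq_sum_erase g _ hτc, cobd_eq_sum_erase g' τ hτs,
      Finset.sum_union hτdis.symm,
      Finset.sum_eq_zero (s := ρ) (fun x hx => by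
        by_contra h
        exact Finset.notMem_erase x (ρ ∪ τ) (hg _ h hx)), zero_add]
    refine Finset.sum_congr rfl fun x hx => ?_
    rw [hg']
    congr 1
    rw [Finset.erase_union_distrib, Finset.erase_eq_of_notMem
      (Finset.disjoint_left.mp hτdis hx)]
  rw [hcob]
  exact hτne

/-- The links are coboundary expanders. -/
theorem link_expansion (hR : Rainbow r col F) (hH : Homog col F) {cc B : ℕ}
    (hC : LinkCones cc B F) {c : ℕ} (hc : c ≤ cc) :
    LinkExpansion F ((2 ^ r * B : ℕ) : ℝ) c := by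
  intro ρ hρ1 hρc hρF g hg
  have hρface : IsFace F ρ := (mem_faces.mp hρF).1
  have hne : ρ.Nonempty := Finset.card_pos.mp (by omega)
  obtain ⟨C, hCρ⟩ := hC ρ hne hρface (hρc.trans hc)
  set S := (suppOn F (c + 1) (cobd c g)).filter (fun τ => ρ ⊆ τ) with hS
  have hΨ : ∀ σ ∈ faces F c, ρ ⊆ σ →
      ((C (σ \ ρ)).support.image (ρ ∪ ·)).card ≤ B ∧
      ∀ τ ∈ (C (σ \ ρ)).support.image (ρ ∪ ·), IsFace F τ ∧ ρ ⊆ τ := by
    intro σ hσ hρσ
    obtain ⟨hσf, hσc⟩ := mem_faces.mp hσ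
    obtain ⟨hs, -, hsize⟩ := hCρ (σ \ ρ) (by rw [Finset.union_sdiff_of_subset hρσ]; exact hσf)
      Finset.sdiff_disjoint (by
        rw [Finset.card_sdiff_of_subset hρσ, hσc]
        have := Finset.card_le_card hρσ
        omega)
    refine ⟨Finset.card_image_le.trans hsize, fun τ' hτ' => ?_⟩
    obtain ⟨τ, hτ, rfl⟩ := Finset.mem_image.mp hτ'
    exact ⟨(hs τ hτ).2.2, Finset.subset_union_left⟩
  have hr0 : r ≠ 0 := by
    obtain ⟨x, -⟩ := hne
    exact Nat.ne_zero_of_lt (col x).2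
  obtain ⟨e, he, hle⟩ := exists_good_auto hR hH hρface hr0 (c := c)
    (fun σ => (C (σ \ ρ)).support.image (ρ ∪ ·)) hΨ S
  set E : Equiv.Perm α := lift F e with hE
  obtain ⟨hEF, -, hEρ⟩ := mem_autos.mp he
  obtain ⟨hEiF, -, hEiρ⟩ := mem_autos.mp (inv_mem_autos he)
  rw [lift_inv] at hEiF hEiρ
  have hfix : ρ.image E = ρ := by
    conv_rhs => rw [← Finset.image_id (s := ρ)]
    exact Finset.image_congr hEρ
  have hfixi : ρ.image (E⁻¹ : Equiv.Perm α) = ρ := by
    conv_rhs => rw [← Finset.image_id (s := ρ)]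
    exact Finset.image_congr hEiρ
  set g₁ : Finset α → ZMod 2 := fun η => g (η.image E) with hg₁
  set h₁ : Finset α → ZMod 2 :=
    fun η => if ρ ⊆ η then ev (fun τ => g₁ (ρ ∪ τ)) (C (η \ ρ)) else 0 with hh₁
  have hsub : ∀ η : Finset α, ρ ⊆ η.image (E⁻¹ : Equiv.Perm α) → ρ ⊆ η := fun η h => by
    have := Finset.image_subset_image (f := E) h
    rwa [hfix, image_image_inv] at this
  have hg₁s : ∀ η, g₁ η ≠ 0 → ρ ⊆ η := fun η hη => by
    have := Finset.image_subset_image (f := (E⁻¹ : Equiv.Perm α)) (hg _ hη)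
    rwa [hfixi, image_inv_image] at this
  refine ⟨fun η => h₁ (η.image (E⁻¹ : Equiv.Perm α)),
    fun η hη => hsub η (by by_contra h; exact hη (if_neg h)), ?_⟩
  have key : ∀ σ ∈ suppOn F c (fun σ => g σ + cobd (c - 1)
      (fun η => h₁ (η.image (E⁻¹ : Equiv.Perm α))) σ),
      σ.image (E⁻¹ : Equiv.Perm α) ∈ (faces F c).filter fun σ =>
        ρ ⊆ σ ∧ ∃ τ ∈ (C (σ \ ρ)).support.image (ρ ∪ ·), τ.image E ∈ S := by
    intro σ hσ
    obtain ⟨hσF, hσne⟩ := Finset.mem_filter.mp hσ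
    obtain ⟨⟨T, hT, hσT⟩, hσc⟩ := mem_faces.mp hσF
    have hσ'f : IsFace F (σ.image (E⁻¹ : Equiv.Perm α)) :=
      ⟨_, image_lift_mem hEiF hT, Finset.image_subset_image hσT⟩
    have hσ'c : (σ.image (E⁻¹ : Equiv.Perm α)).card = c :=
      (Finset.card_image_of_injective σ (Equiv.injective _)).trans hσc
    replace hσne : g σ + cobd (c - 1)
      (fun η => h₁ (η.image (E⁻¹ : Equiv.Perm α))) σ ≠ 0 := hσne
    rw [cobd_map] at hσne
    have hval : g₁ (σ.image (E⁻¹ : Equiv.Perm α)) +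
        cobd (c - 1) h₁ (σ.image (E⁻¹ : Equiv.Perm α)) ≠ 0 := by
      show g ((σ.image (E⁻¹ : Equiv.Perm α)).image E) + _ ≠ 0
      rw [image_image_inv]
      exact hσne
    obtain ⟨hρσ, τ, hτ, hτne⟩ := cone_defect hσ'f hσ'c hne
      (fun σ h1 h2 h3 => ⟨(hCρ σ h1 h2 (h3.trans hc)).1, (hCρ σ h1 h2 (h3.trans hc)).2.1⟩)
      hg₁s hval
    refine Finset.mem_filter.mpr ⟨mem_faces.mpr ⟨hσ'f, hσ'c⟩, hρσ, ρ ∪ τ,
      Finset.mem_image.mpr ⟨τ, hτ, rfl⟩, ?_⟩
    have hle' := Finset.card_le_card hρσ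
    obtain ⟨hs, -, -⟩ := hCρ (σ.image (E⁻¹ : Equiv.Perm α) \ ρ)
      (by rw [Finset.union_sdiff_of_subset hρσ]; exact hσ'f) Finset.sdiff_disjoint (by
        rw [Finset.card_sdiff_of_subset hρσ]
        omega)
    obtain ⟨hτs, hτdis, T', hT', hsub'⟩ := hs τ hτ
    refine Finset.mem_filter.mpr ⟨Finset.mem_filter.mpr
      ⟨mem_faces.mpr ⟨⟨_, image_lift_mem hEF hT', Finset.image_subset_image hsub'⟩, ?_⟩, ?_⟩,
      ?_⟩
    · rw [Finset.card_image_of_injective _ E.injective,
        Finset.card_union_of_disjoint hτdis.symm, hτs, Finset.card_sdiff_of_subset hρσ]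
      omega
    · rw [← cobd_map E]
      exact hτne
    · calc ρ = ρ.image E := hfix.symm
        _ ⊆ _ := Finset.image_subset_image Finset.subset_union_left
  have hmass : mass F (suppOn F c (fun σ => g σ +
      cobd (c - 1) (fun η => h₁ (η.image (E⁻¹ : Equiv.Perm α))) σ)) ≤
        2 ^ r * B * mass F S := by
    refine le_trans ?_ hle
    simp only [mass]
    refine le_trans (le_of_eq ?_) (Finset.sum_le_sum_of_subset (Finset.image_subset_iff.mpr key))
    rw [Finset.sum_image (fun x _ y _ h => Finset.image_injective (Equiv.injective _) h)]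
    refine Finset.sum_congr rfl fun σ _ => ?_
    have := cnt_map (inv_mem_autos he) σ
    rw [lift_inv] at this
    exact this.symm
  calc (mass F _ : ℝ) ≤ ((2 ^ r * B * mass F S : ℕ) : ℝ) := by exact_mod_cast hmass
    _ = _ := by push_cast; ring

end Vale.Agent.P067.Full.Local
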