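import Vale.Agent.P067.Full.Local.Avg

/-!
Mixing in every link, the empty face included, from mixing in the links of nonempty faces and
connectedness.
-/

namespace Vale.Agent.P067.Full.Local

open Finset Vale.Agent.HDX Vale.Agent.HDX.Q

set_option linter.unusedSectionVars false

variable {α : Type*} [DecidableEq α] {r : ℕ} {col : α → Fin r} {F : Finset (Finset α)} {lam : ℝ}

/-- The sum of `f` over the vertices of one colour in a set. -/
def cs (col : α → Fin r) (i : Fin r) (f : α → ℝ) (τ : Finset α) : ℝ :=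
  ∑ a ∈ τ.filter (fun a => col a = i), f a

lemma exists_color (hR : Rainbow r col F) {τ : Finset α} (hτ : τ ∈ F) (i : Fin r) :
    ∃ a, a ∈ τ ∧ col a = i ∧ τ.filter (fun x => col x = i) = {a} := by
  have himg : τ.image col = Finset.univ := by
    apply Finset.eq_univ_of_card
    rw [Finset.card_image_of_injOn (hR.2 τ hτ).2, (hR.2 τ hτ).1, Fintype.card_fin]
  have hi : i ∈ τ.image col := himg ▸ Finset.mem_univ i
  obtain ⟨a, ha, hai⟩ := Finset.mem_image.mp hi
  refine ⟨a, ha, hai, Finset.eq_singleton_iff_unique_mem.mpr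
    ⟨Finset.mem_filter.mpr ⟨ha, hai⟩, fun x hx => ?_⟩⟩
  obtain ⟨hx1, hx2⟩ := Finset.mem_filter.mp hx
  exact rainbow_injOn hR hτ hx1 ha (hx2.trans hai.symm)

lemma cs_eq (hR : Rainbow r col F) {τ : Finset α} (hτ : τ ∈ F) {a : α} (ha : a ∈ τ) {i : Fin r}
    (hi : col a = i) (f : α → ℝ) : cs col i f τ = f a := by
  obtain ⟨b, hb, hbi, hfil⟩ := exists_color hR hτ i
  rw [cs, hfil, Finset.sum_singleton, rainbow_injOn hR hτ ha hb (hi.trans hbi.symm)]

lemma cs_sq (hR : Rainbow r col F) {τ : Finset α} (hτ : τ ∈ F) (i : Fin r) (f : α → ℝ) :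
    ∑ a ∈ τ.filter (fun a => col a = i), f a ^ 2 = cs col i f τ ^ 2 := by
  obtain ⟨b, hb, hbi, hfil⟩ := exists_color hR hτ i
  rw [cs, hfil, Finset.sum_singleton, Finset.sum_singleton]

/-- Bilinear mixing in the link of a nonempty face. -/
lemma local_mix (hR : Rainbow r col F) (hM : PairMix lam col F) (hlam : 0 ≤ lam) {η : Finset α}
    (hne : η.Nonempty) (hη : IsFace F η) {i j : Fin r} (hij : i ≠ j) (hi : i ∉ η.image col)
    (hj : j ∉ η.image col) (f g : α → ℝ) :
    ∑ τ ∈ F.filter (fun τ => η ⊆ τ), cs col i f τ * cs col j g τ ≤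
      (∑ τ ∈ F.filter (fun τ => η ⊆ τ), cs col i f τ) *
          (∑ τ ∈ F.filter (fun τ => η ⊆ τ), cs col j g τ) /
            (F.filter (fun τ => η ⊆ τ)).card +
        lam / 2 *
          ((∑ τ ∈ F.filter (fun τ => η ⊆ τ), cs col i f τ ^ 2 -
              (∑ τ ∈ F.filter (fun τ => η ⊆ τ), cs col i f τ) ^ 2 /
                (F.filter (fun τ => η ⊆ τ)).card) +
            (∑ τ ∈ F.filter (fun τ => η ⊆ τ), cs col j g τ ^ 2 -
              (∑ τ ∈ F.filter (fun τ => η ⊆ τ), cs col j g τ) ^ 2 /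
                (F.filter (fun τ => η ⊆ τ)).card)) := by
  set G := F.filter (fun τ => η ⊆ τ) with hG
  have hGF : ∀ τ ∈ G, τ ∈ F := fun τ hτ => (Finset.mem_filter.mp hτ).1
  have hN : (0 : ℝ) < G.card := by
    obtain ⟨T, hT, hηT⟩ := hη
    exact_mod_cast Finset.card_pos.mpr ⟨T, Finset.mem_filter.mpr ⟨hT, hηT⟩⟩
  set N : ℝ := (G.card : ℝ) with hNdef
  set p := ∑ τ ∈ G, cs col i f τ with hp
  set q := ∑ τ ∈ G, cs col j g τ with hq
  have hshift : ∀ (k : Fin r) (h : α → ℝ) (c : ℝ), ∀ τ ∈ G,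
      cs col k (fun a => h a - c) τ = cs col k h τ - c := by
    intro k h c τ hτ
    obtain ⟨a, ha, hak, -⟩ := exists_color hR (hGF τ hτ) k
    rw [cs_eq hR (hGF τ hτ) ha hak, cs_eq hR (hGF τ hτ) ha hak]
  have hzero : ∀ (k : Fin r) (h : α → ℝ),
      ∑ τ ∈ G, cs col k (fun a => h a - (∑ τ ∈ G, cs col k h τ) / N) τ = 0 := by
    intro k h
    rw [Finset.sum_congr rfl (hshift k h _), Finset.sum_sub_distrib, Finset.sum_const,
      nsmul_eq_mul, mul_div_cancel₀ _ hN.ne', sub_self]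
  have h := hM η hne hη i j hij hi hj (fun a => f a - p / N) (fun a => g a - q / N)
    (hzero i f) (hzero j g)
  rw [Finset.sum_congr rfl (fun τ hτ => cs_sq hR (hGF τ hτ) i (fun a => f a - p / N)),
    Finset.sum_congr rfl (fun τ hτ => cs_sq hR (hGF τ hτ) j (fun a => g a - q / N)),
    Finset.sum_congr rfl (fun τ hτ => show
      (∑ a ∈ τ.filter (fun a => col a = i), (f a - p / N)) *
        (∑ b ∈ τ.filter (fun b => col b = j), (g b - q / N)) =
      (cs col i f τ - p / N) * (cs col j g τ - q / N) by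
        rw [← hshift i f _ τ hτ, ← hshift j g _ τ hτ]; rfl),
    Finset.sum_congr rfl (fun τ hτ => by rw [hshift i f _ τ hτ] :
      ∀ τ ∈ G, cs col i (fun a => f a - p / N) τ ^ 2 = (cs col i f τ - p / N) ^ 2),
    Finset.sum_congr rfl (fun τ hτ => by rw [hshift j g _ τ hτ] :
      ∀ τ ∈ G, cs col j (fun a => g a - q / N) τ ^ 2 = (cs col j g τ - q / N) ^ 2)] at h
  have e1 : ∑ τ ∈ G, (cs col i f τ - p / N) * (cs col j g τ - q / N) =
      ∑ τ ∈ G, cs col i f τ * cs col j g τ - p * q / N := by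
    simp only [sub_mul, mul_sub, Finset.sum_sub_distrib, ← Finset.sum_mul, ← Finset.mul_sum,
      Finset.sum_const, nsmul_eq_mul, ← hp, ← hq]
    field_simp
    ring
  have e2 : ∀ (k : Fin r) (hf : α → ℝ), ∑ τ ∈ G, (cs col k hf τ - (∑ τ ∈ G, cs col k hf τ) / N) ^ 2
      = ∑ τ ∈ G, cs col k hf τ ^ 2 - (∑ τ ∈ G, cs col k hf τ) ^ 2 / N := by
    intro k hf
    simp only [sub_sq, Finset.sum_add_distrib, Finset.sum_sub_distrib, Finset.sum_const,
      nsmul_eq_mul, ← Finset.mul_sum, ← Finset.sum_mul]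
    field_simp
    ring
  rw [e1, e2 i f, e2 j g] at h
  rw [← hp, ← hq] at h
  set U := ∑ τ ∈ G, cs col i f τ ^ 2 - p ^ 2 / N with hU
  set V := ∑ τ ∈ G, cs col j g τ ^ 2 - q ^ 2 / N with hV
  have hU0 : 0 ≤ U := by
    have := e2 i f
    rw [← hp] at this
    rw [hU, ← this]
    exact Finset.sum_nonneg fun _ _ => sq_nonneg _
  have hV0 : 0 ≤ V := by
    have := e2 j g
    rw [← hq] at this
    rw [hV, ← this]
    exact Finset.sum_nonneg fun _ _ => sq_nonneg _
  have hgm : Real.sqrt U * Real.sqrt V ≤ (U + V) / 2 := by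
    nlinarith [sq_nonneg (Real.sqrt U - Real.sqrt V), Real.sq_sqrt hU0, Real.sq_sqrt hV0]
  have := mul_le_mul_of_nonneg_left hgm hlam
  linarith

/-- An upper bound for all the two-colour operators of the whole complex. -/
def UB (col : α → Fin r) (F : Finset (Finset α)) (L : ℝ) : Prop :=
  ∀ i j : Fin r, i ≠ j → ∀ f g : α → ℝ, ∑ τ ∈ F, cs col i f τ = 0 →
    ∑ τ ∈ F, cs col j g τ = 0 →
    ∑ τ ∈ F, cs col i f τ * cs col j g τ ≤
      L / 2 * (∑ τ ∈ F, cs col i f τ ^ 2 + ∑ τ ∈ F, cs col j g τ ^ 2)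

/-- The vertices of one colour. -/
def colVerts (col : α → Fin r) (F : Finset (Finset α)) (k : Fin r) : Finset α :=
  (vertices F).filter fun a => col a = k

lemma sum_by_color (hR : Rainbow r col F) (k : Fin r) (φ : Finset α → ℝ) :
    ∑ τ ∈ F, φ τ = ∑ w ∈ colVerts col F k, ∑ τ ∈ F.filter (fun τ => {w} ⊆ τ), φ τ := by
  simp only [Finset.sum_filter]
  rw [Finset.sum_comm]
  refine Finset.sum_congr rfl fun τ hτ => ?_
  obtain ⟨a, ha, hak, -⟩ := exists_color hR hτ k
  rw [colVerts, Finset.sum_eq_single_of_mem a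
    (Finset.mem_filter.mpr ⟨mem_vertices.mpr ⟨τ, hτ, ha⟩, hak⟩) fun b hb hba => ?_,
    if_pos (Finset.singleton_subset_iff.mpr ha)]
  refine if_neg fun h => hba ?_
  exact rainbow_injOn hR hτ (Finset.singleton_subset_iff.mp h) ha
    ((Finset.mem_filter.mp hb).2.trans hak.symm)

lemma exists_third (hr : 3 ≤ r) (i j : Fin r) : ∃ k : Fin r, k ≠ i ∧ k ≠ j := by
  obtain ⟨k, -, hk⟩ : ∃ k ∈ (Finset.univ : Finset (Fin r)), k ∉ ({i, j} : Finset (Fin r)) := by
    refine Finset.exists_mem_notMem_of_card_lt_card ?_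
    rw [Finset.card_univ, Fintype.card_fin]
    exact lt_of_le_of_lt Finset.card_le_two (by omega)
  simp only [Finset.mem_insert, Finset.mem_singleton, not_or] at hk
  exact ⟨k, hk⟩

/-- One step of trickling down. -/
lemma UB.trickle (hR : Rainbow r col F) (hM : PairMix lam col F) (hlam : 0 ≤ lam)
    (hlam1 : lam ≤ 1) (hr : 3 ≤ r) {L : ℝ} (hL : 0 < L) (h : UB col F L) :
    UB col F ((1 - lam) * L ^ 2 + lam) := by
  intro i j hij f g hf hg
  obtain ⟨k, hki, hkj⟩ := exists_third hr i j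
  set W := colVerts col F k with hW
  set G : α → Finset (Finset α) := fun w => F.filter (fun τ => {w} ⊆ τ) with hG
  set N : α → ℝ := fun w => ((G w).card : ℝ) with hN
  set u := cs col i f with hu
  set v := cs col j g with hv
  have hNpos : ∀ w ∈ W, 0 < N w := by
    intro w hw
    obtain ⟨τ, hτ, hwτ⟩ := mem_vertices.mp (Finset.mem_filter.mp hw).1
    simp only [hN]
    exact_mod_cast Finset.card_pos.mpr
      ⟨τ, Finset.mem_filter.mpr ⟨hτ, Finset.singleton_subset_iff.mpr hwτ⟩⟩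
  have key : ∀ (l : Fin r), k ≠ l → ∀ φ : α → ℝ, ∑ τ ∈ F, cs col l φ τ = 0 →
      ∑ w ∈ W, (∑ τ ∈ G w, cs col l φ τ) ^ 2 / N w ≤
        L ^ 2 * ∑ τ ∈ F, cs col l φ τ ^ 2 := by
    intro l hkl φ hφ
    set a := ∑ w ∈ W, (∑ τ ∈ G w, cs col l φ τ) ^ 2 / N w with ha
    set M : α → ℝ := fun w => (∑ τ ∈ G w, cs col l φ τ) / N w with hMdef
    have hval : ∀ w ∈ W, ∀ τ ∈ G w, cs col k M τ = M w := by
      intro w hw τ hτ
      obtain ⟨hτF, hwτ⟩ := Finset.mem_filter.mp hτ
      exact cs_eq hR hτF (Finset.singleton_subset_iff.mp hwτ) (Finset.mem_filter.mp hw).2 M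
    have h1 : ∑ τ ∈ F, cs col k M τ = 0 := by
      rw [sum_by_color hR k, ← hφ, sum_by_color hR k (cs col l φ)]
      refine Finset.sum_congr rfl fun w hw => ?_
      rw [Finset.sum_congr rfl (hval w hw), Finset.sum_const, nsmul_eq_mul, hMdef]
      show N w * _ = _
      have := (hNpos w hw).ne'
      field_simp
      rfl
    have h2 : ∑ τ ∈ F, cs col l φ τ * cs col k M τ = a := by
      rw [sum_by_color hR k]
      refine Finset.sum_congr rfl fun w hw => ?_
      rw [Finset.sum_congr rfl (fun τ hτ => by rw [hval w hw τ hτ] :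
        ∀ τ ∈ G w, cs col l φ τ * cs col k M τ = cs col l φ τ * M w), ← Finset.sum_mul, hMdef]
      ring
    have h3 : ∑ τ ∈ F, cs col k M τ ^ 2 = a := by
      rw [sum_by_color hR k]
      refine Finset.sum_congr rfl fun w hw => ?_
      rw [Finset.sum_congr rfl (fun τ hτ => by rw [hval w hw τ hτ] :
        ∀ τ ∈ G w, cs col k M τ ^ 2 = M w ^ 2), Finset.sum_const, nsmul_eq_mul, hMdef]
      show N w * _ = _
      have := (hNpos w hw).ne'
      field_simp
    have hs : ∀ τ : Finset α, cs col k (fun w => M w / L) τ = cs col k M τ / L := fun τ => by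
      simp only [cs, Finset.sum_div]
    have h4 := h l k hkl.symm φ (fun w => M w / L) hφ (by
      simp only [hs, ← Finset.sum_div, h1, zero_div])
    simp only [hs, mul_div_assoc', div_pow, ← Finset.sum_div, h2, h3] at h4
    have h5 : L * (a / L) ≤ L * (L / 2 * (∑ τ ∈ F, cs col l φ τ ^ 2 + a / L ^ 2)) :=
      mul_le_mul_of_nonneg_left h4 hL.le
    rw [mul_div_cancel₀ _ hL.ne'] at h5
    have h6 : L * (L / 2 * (∑ τ ∈ F, cs col l φ τ ^ 2 + a / L ^ 2)) =
        L ^ 2 / 2 * ∑ τ ∈ F, cs col l φ τ ^ 2 + a / 2 := by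
      field_simp
    linarith
  have ha := key i hki f hf
  have hb := key j hkj g hg
  have hsplit : ∑ τ ∈ F, u τ * v τ ≤ ∑ w ∈ W,
      ((1 - lam) / 2 * ((∑ τ ∈ G w, u τ) ^ 2 / N w + (∑ τ ∈ G w, v τ) ^ 2 / N w) +
        lam / 2 * (∑ τ ∈ G w, u τ ^ 2 + ∑ τ ∈ G w, v τ ^ 2)) := by
    rw [sum_by_color hR k]
    refine Finset.sum_le_sum fun w hw => ?_
    obtain ⟨hwv, hwk⟩ := Finset.mem_filter.mp hw
    obtain ⟨τ, hτ, hwτ⟩ := mem_vertices.mp hwv
    refine (local_mix hR hM hlam (Finset.singleton_nonempty w)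
      ⟨τ, hτ, Finset.singleton_subset_iff.mpr hwτ⟩ hij (by simp [hwk, hki.symm])
      (by simp [hwk, hkj.symm]) f g).trans ?_
    show (∑ τ ∈ G w, u τ) * (∑ τ ∈ G w, v τ) / N w + lam / 2 *
      ((∑ τ ∈ G w, u τ ^ 2 - (∑ τ ∈ G w, u τ) ^ 2 / N w) +
        (∑ τ ∈ G w, v τ ^ 2 - (∑ τ ∈ G w, v τ) ^ 2 / N w)) ≤ _
    set p := ∑ τ ∈ G w, u τ
    set q := ∑ τ ∈ G w, v τ
    have : p * q / N w ≤ (p ^ 2 / N w + q ^ 2 / N w) / 2 := by
      rw [← add_div, div_div, div_le_div_iff₀ (hNpos w hw) (by have := hNpos w hw; linarith)]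
      have h0 := mul_nonneg (hNpos w hw).le (sq_nonneg (p - q))
      nlinarith
    linarith
  refine hsplit.trans ?_
  simp only [Finset.sum_add_distrib, ← Finset.mul_sum]
  rw [hG]
  simp only
  rw [← sum_by_color hR k (fun τ => u τ ^ 2), ← sum_by_color hR k (fun τ => v τ ^ 2)]
  have h7 := mul_le_mul_of_nonneg_left (add_le_add ha hb) (by linarith : (0 : ℝ) ≤ (1 - lam) / 2)
  simp only [hu, hv, hG] at h7 ⊢
  linarith

lemma abs_le_of_sq_le_mul {x R c : ℝ} (hc : 0 < c) (h : c * x ^ 2 ≤ R) :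
    |x| ≤ Real.sqrt (R / c) := by
  rw [← Real.sqrt_sq_eq_abs]
  refine Real.sqrt_le_sqrt ?_
  rw [le_div_iff₀ hc]
  linarith

/-- A complex that is exact in degree zero is connected by shared vertices. -/
lemma share_closed (hE : ∀ f : Finset α → ZMod 2, (∀ τ ∈ faces F 2, cobd 1 f τ = 0) →
      ∃ g, ∀ σ ∈ faces F 1, f σ = cobd 0 g σ)
    {Z : Finset (Finset α)} (hne : ∀ τ ∈ F, τ.Nonempty) {T : Finset α} (hT : T ∈ F)
    (hTZ : T ∈ Z) (hcl : ∀ τ ∈ F, τ ∈ Z → ∀ τ' ∈ F, ∀ w ∈ τ, w ∈ τ' → τ' ∈ Z)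
    {τ : Finset α} (hτ : τ ∈ F) : τ ∈ Z := by
  classical
  set f : Finset α → ZMod 2 := fun σ =>
    if ∃ x, σ = {x} ∧ ∃ T' ∈ F, T' ∈ Z ∧ x ∈ T' then 1 else 0 with hf
  have hfx : ∀ x, f {x} = if ∃ T' ∈ F, T' ∈ Z ∧ x ∈ T' then 1 else 0 := by
    intro x
    simp only [hf, Finset.singleton_inj]
    simp
  obtain ⟨g, hg⟩ := hE f (by
    intro σ hσ
    obtain ⟨⟨τ', hτ', hσs⟩, hc⟩ := mem_faces.mp hσ
    obtain ⟨x, y, hxy, rfl⟩ := Finset.card_eq_two.mp hc
    have hx : x ∈ τ' := hσs (by simp)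
    have hy : y ∈ τ' := hσs (by simp)
    rw [cobd_eq_sum_erase f _ (i := 1) hc, Finset.sum_pair hxy]
    have h1 : ({x, y} : Finset α).erase x = {y} := by
      rw [Finset.erase_insert (by simp [hxy])]
    have h2 : ({x, y} : Finset α).erase y = {x} := by
      rw [Finset.pair_comm, Finset.erase_insert (by simp [hxy.symm])]
    have hstep : ∀ a b, a ∈ τ' → b ∈ τ' → (∃ T' ∈ F, T' ∈ Z ∧ a ∈ T') →
        ∃ T' ∈ F, T' ∈ Z ∧ b ∈ T' := fun a b ha hb ⟨T', h1, h2, h3⟩ =>
      ⟨τ', hτ', hcl T' h1 h2 τ' hτ' a h3 ha, hb⟩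
    rw [h1, h2, hfx, hfx]
    by_cases hr : ∃ T' ∈ F, T' ∈ Z ∧ x ∈ T'
    · rw [if_pos hr, if_pos (hstep x y hx hy hr)]; exact ZModModule.add_self _
    · rw [if_neg hr, if_neg (fun h => hr (hstep y x hy hx h)), add_zero])
  obtain ⟨a, ha⟩ := hne T hT
  obtain ⟨b, hb⟩ := hne τ hτ
  have hga := hg {a} (mem_faces.mpr ⟨⟨T, hT, Finset.singleton_subset_iff.mpr ha⟩, by simp⟩)
  have hgb := hg {b} (mem_faces.mpr ⟨⟨τ, hτ, Finset.singleton_subset_iff.mpr hb⟩, by simp⟩)
  have hc : ∀ x : α, cobd 0 g {x} = g ∅ := fun x => by simp [cobd]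
  rw [hfx, if_pos ⟨T, hT, hTZ, ha⟩, hc] at hga
  rw [hfx, hc, ← hga] at hgb
  by_cases hbZ : ∃ T' ∈ F, T' ∈ Z ∧ b ∈ T'
  · obtain ⟨T', h1, h2, h3⟩ := hbZ
    exact hcl T' h1 h2 τ hτ b h3 hb
  · rw [if_neg hbZ] at hgb
    exact absurd hgb zero_ne_one

/-- Connectedness gives a nontrivial bound. -/
lemma exists_UB_lt_one (hR : Rainbow r col F) (hM : PairMix lam col F) (hlam : 0 < lam)
    (hlam1 : lam < 1)
    (hE : ∀ f : Finset α → ZMod 2, (∀ τ ∈ faces F 2, cobd 1 f τ = 0) →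
      ∃ g, ∀ σ ∈ faces F 1, f σ = cobd 0 g σ) :
    ∃ L, lam ≤ L ∧ L < 1 ∧ UB col F L := by
  classical
  set n : ℝ := (F.card : ℝ) with hn
  have hn1 : 1 ≤ n := by
    rw [hn]; exact_mod_cast Finset.card_pos.mpr hR.1
  set K : ℝ := n * (n * 2) ^ 2 / (1 - lam) with hK
  have hc : 0 < 1 - lam := by linarith
  have hK0 : 0 < K := by rw [hK]; positivity
  refine ⟨max lam (1 - 1 / (2 * K)), le_max_left _ _, max_lt hlam1 (by
    have : 0 < 1 / (2 * K) := by positivity
    linarith), fun i j hij f g hf hg => ?_⟩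
  set u := cs col i f with hu
  set v := cs col j g with hv
  set R := ∑ τ ∈ F, (u τ - v τ) ^ 2 with hRdef
  set δ := 2 * Real.sqrt (R / (1 - lam)) with hδ
  have hR0 : 0 ≤ R := Finset.sum_nonneg fun _ _ => sq_nonneg _
  have hsame : ∀ τ ∈ F, |u τ - v τ| ≤ Real.sqrt (R / (1 - lam)) := by
    intro τ hτ
    refine abs_le_of_sq_le_mul hc ?_
    have h1 : (u τ - v τ) ^ 2 ≤ R :=
      Finset.single_le_sum (f := fun τ => (u τ - v τ) ^ 2) (fun _ _ => sq_nonneg _) hτ
    have := mul_le_mul_of_nonneg_right (by linarith : 1 - lam ≤ 1) (sq_nonneg (u τ - v τ))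
    linarith
  have hstep : ∀ τ ∈ F, ∀ τ' ∈ F, ∀ w ∈ τ, w ∈ τ' → |u τ - u τ'| ≤ δ ∧ |v τ - v τ'| ≤ δ := by
    intro τ hτ τ' hτ' w hw hw'
    have hsq : 0 ≤ Real.sqrt (R / (1 - lam)) := Real.sqrt_nonneg _
    have h1 := hsame τ hτ
    have h2 := hsame τ' hτ'
    by_cases hwi : col w = i
    · have : u τ = u τ' := by rw [hu, cs_eq hR hτ hw hwi, cs_eq hR hτ' hw' hwi]
      rw [abs_le] at h1 h2 ⊢
      constructor
      · constructor <;> linarith
      · rw [abs_le]; constructor <;> linarith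
    by_cases hwj : col w = j
    · have : v τ = v τ' := by rw [hv, cs_eq hR hτ hw hwj, cs_eq hR hτ' hw' hwj]
      rw [abs_le] at h1 h2 ⊢
      constructor
      · constructor <;> linarith
      · rw [abs_le]; constructor <;> linarith
    have hface : IsFace F {w} := ⟨τ, hτ, Finset.singleton_subset_iff.mpr hw⟩
    have hloc := local_mix hR hM hlam.le (Finset.singleton_nonempty w) hface hij
      (by simp [Ne.symm hwi]) (by simp [Ne.symm hwj]) f g
    set G := F.filter (fun τ => {w} ⊆ τ) with hG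
    have hN : (0 : ℝ) < G.card := by
      exact_mod_cast Finset.card_pos.mpr
        ⟨τ, Finset.mem_filter.mpr ⟨hτ, Finset.singleton_subset_iff.mpr hw⟩⟩
    set p := ∑ τ ∈ G, u τ with hp
    set q := ∑ τ ∈ G, v τ with hq
    have hdev : ∀ h : Finset α → ℝ, ∑ σ ∈ G, (h σ - (∑ σ ∈ G, h σ) / G.card) ^ 2 =
        ∑ σ ∈ G, h σ ^ 2 - (∑ σ ∈ G, h σ) ^ 2 / G.card := by
      intro h
      simp only [sub_sq, Finset.sum_add_distrib, Finset.sum_sub_distrib, Finset.sum_const,
        nsmul_eq_mul, ← Finset.mul_sum, ← Finset.sum_mul]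
      field_simp
      ring
    have hRG : ∑ σ ∈ G, (u σ ^ 2 + v σ ^ 2 - 2 * (u σ * v σ)) ≤ R := by
      refine le_trans (le_of_eq (Finset.sum_congr rfl fun σ _ => by ring))
        (Finset.sum_le_sum_of_subset_of_nonneg (f := fun σ => (u σ - v σ) ^ 2)
          (Finset.filter_subset _ _) fun _ _ _ => sq_nonneg _)
    simp only [Finset.sum_sub_distrib, Finset.sum_add_distrib, ← Finset.mul_sum] at hRG
    have hpq : p * q / (G.card : ℝ) ≤ (p ^ 2 / G.card + q ^ 2 / G.card) / 2 := by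
      rw [← add_div, div_div, div_le_div_iff₀ hN (by linarith)]
      have h0 := mul_nonneg hN.le (sq_nonneg (p - q))
      nlinarith
    have hboth : (1 - lam) * (∑ σ ∈ G, (u σ - p / G.card) ^ 2 +
        ∑ σ ∈ G, (v σ - q / G.card) ^ 2) ≤ R := by
      rw [hdev u, hdev v, ← hp, ← hq]
      simp only [hu, hv] at hp hq hRG hpq ⊢
      linarith
    have hone : ∀ (h : Finset α → ℝ) (m : ℝ), (1 - lam) * ∑ σ ∈ G, (h σ - m) ^ 2 ≤ R →
        ∀ σ ∈ G, |h σ - m| ≤ Real.sqrt (R / (1 - lam)) := fun h m hle σ hσ =>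
      abs_le_of_sq_le_mul hc (le_trans (mul_le_mul_of_nonneg_left
        (Finset.single_le_sum (f := fun σ => (h σ - m) ^ 2) (fun _ _ => sq_nonneg _) hσ) hc.le)
        hle)
    have hτG : τ ∈ G := Finset.mem_filter.mpr ⟨hτ, Finset.singleton_subset_iff.mpr hw⟩
    have hτ'G : τ' ∈ G := Finset.mem_filter.mpr ⟨hτ', Finset.singleton_subset_iff.mpr hw'⟩
    have hu0 : 0 ≤ ∑ σ ∈ G, (u σ - p / G.card) ^ 2 := Finset.sum_nonneg fun _ _ => sq_nonneg _
    have hv0 : 0 ≤ ∑ σ ∈ G, (v σ - q / G.card) ^ 2 := Finset.sum_nonneg fun _ _ => sq_nonneg _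
    have h3 := hone u _ (le_trans (mul_le_mul_of_nonneg_left (by linarith) hc.le) hboth)
    have h4 := hone v _ (le_trans (mul_le_mul_of_nonneg_left (by linarith) hc.le) hboth)
    refine ⟨?_, ?_⟩
    · have ha := h3 τ hτG
      have hb := h3 τ' hτ'G
      rw [abs_le] at ha hb ⊢
      constructor <;> linarith
    · have ha := h4 τ hτG
      have hb := h4 τ' hτ'G
      rw [abs_le] at ha hb ⊢
      constructor <;> linarith
  have hδ0 : 0 ≤ δ := by positivity
  have hbig : ∀ h : Finset α → ℝ, (∀ τ ∈ F, ∀ τ' ∈ F, ∀ w ∈ τ, w ∈ τ' → |h τ - h τ'| ≤ δ) →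
      ∑ τ ∈ F, h τ = 0 → ∑ τ ∈ F, h τ ^ 2 ≤ K * R := by
    intro h hh hzero
    obtain ⟨T, hT⟩ := hR.1
    have hne : ∀ τ ∈ F, τ.Nonempty := fun τ hτ => by
      obtain ⟨a, ha, -⟩ := exists_color hR hτ i
      exact ⟨a, ha⟩
    set Z : ℕ → Finset (Finset α) :=
      fun k => F.filter fun τ => |h τ - h T| ≤ (k : ℝ) * δ with hZ
    have hTZ : ∀ k, T ∈ Z k := fun k => Finset.mem_filter.mpr ⟨hT, by
      rw [sub_self, abs_zero]; positivity⟩
    have hmono : ∀ k, Z k ⊆ Z (k + 1) := fun k τ hτ => by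
      obtain ⟨h1, h2⟩ := Finset.mem_filter.mp hτ
      refine Finset.mem_filter.mpr ⟨h1, h2.trans (mul_le_mul_of_nonneg_right ?_ hδ0)⟩
      push_cast
      linarith
    have hgrow : ∀ k, Z k = F ∨ k + 1 ≤ (Z k).card := by
      intro k
      induction k with
      | zero => exact Or.inr (Finset.card_pos.mpr ⟨T, hTZ 0⟩)
      | succ k ih =>
        rcases ih with ih | ih
        · exact Or.inl (Finset.Subset.antisymm (Finset.filter_subset _ _) (ih ▸ hmono k))
        by_cases he : Z (k + 1) = Z k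
        · refine Or.inl (Finset.Subset.antisymm (Finset.filter_subset _ _) fun τ hτ => ?_)
          rw [he]
          refine share_closed hE hne hT (hTZ k) (fun σ hσ hσZ σ' hσ' w hw hw' => ?_) hτ
          rw [← he]
          refine Finset.mem_filter.mpr ⟨hσ', ?_⟩
          have h1 := (Finset.mem_filter.mp hσZ).2
          have h2 := hh σ hσ σ' hσ' w hw hw'
          push_cast
          rw [abs_le] at h1 h2 ⊢
          constructor <;> linarith
        · refine Or.inr ?_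
          have := Finset.card_lt_card ((hmono k).ssubset_of_ne (Ne.symm he))
          omega
    have hall : Z F.card = F := (hgrow F.card).resolve_right fun h' => by
      have := Finset.card_le_card (Finset.filter_subset
        (fun τ => |h τ - h T| ≤ (F.card : ℝ) * δ) F)
      simp only [hZ] at h'
      omega
    have hdist : ∀ τ ∈ F, |h τ - h T| ≤ n * δ := fun τ hτ => by
      rw [← hall] at hτ
      exact (Finset.mem_filter.mp hτ).2
    have e : ∑ τ ∈ F, (h τ - h T) ^ 2 = ∑ τ ∈ F, h τ ^ 2 + n * h T ^ 2 := by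
      simp only [sub_sq, Finset.sum_add_distrib, Finset.sum_sub_distrib, Finset.sum_const,
        nsmul_eq_mul, ← Finset.mul_sum, ← Finset.sum_mul, hzero]
      rw [hn]
      ring
    have hle : ∑ τ ∈ F, (h τ - h T) ^ 2 ≤ n * (n * δ) ^ 2 := by
      refine (Finset.sum_le_card_nsmul _ _ ((n * δ) ^ 2) fun τ hτ => ?_).trans
        (le_of_eq (by rw [nsmul_eq_mul]))
      rw [← sq_abs]
      exact pow_le_pow_left₀ (abs_nonneg _) (hdist τ hτ) 2
    have hKR : n * (n * δ) ^ 2 = K * R := by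
      rw [hδ, hK]
      have := Real.sq_sqrt (show 0 ≤ R / (1 - lam) by positivity)
      calc n * (n * (2 * Real.sqrt (R / (1 - lam)))) ^ 2
          = n * (n * 2) ^ 2 * Real.sqrt (R / (1 - lam)) ^ 2 := by ring
        _ = _ := by rw [this]; ring
    have : 0 ≤ n * h T ^ 2 := by positivity
    linarith
  have hA := hbig u (fun τ h1 τ' h2 w h3 h4 => (hstep τ h1 τ' h2 w h3 h4).1) hf
  have hB := hbig v (fun τ h1 τ' h2 w h3 h4 => (hstep τ h1 τ' h2 w h3 h4).2) hg
  have hexp : R = ∑ τ ∈ F, u τ ^ 2 + ∑ τ ∈ F, v τ ^ 2 - 2 * ∑ τ ∈ F, u τ * v τ := by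
    rw [hRdef, Finset.mul_sum, ← Finset.sum_add_distrib, ← Finset.sum_sub_distrib]
    exact Finset.sum_congr rfl fun τ _ => by ring
  set S := ∑ τ ∈ F, u τ ^ 2 + ∑ τ ∈ F, v τ ^ 2 with hS
  have hS0 : 0 ≤ S := by positivity
  have h1 : S / (2 * K) ≤ R := by rw [div_le_iff₀ (by positivity)]; linarith
  have h2 := mul_le_mul_of_nonneg_right (le_max_right lam (1 - 1 / (2 * K))) hS0
  have h3 : (1 - 1 / (2 * K)) * S = S - S / (2 * K) := by ring
  linarith

/-- Trickling down to the whole complex. -/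
lemma UB_two_lam (hR : Rainbow r col F) (hM : PairMix lam col F) (hlam : 0 < lam)
    (hlam2 : lam ≤ 1 / 2) (hr : 3 ≤ r)
    (hE : ∀ f : Finset α → ZMod 2, (∀ τ ∈ faces F 2, cobd 1 f τ = 0) →
      ∃ g, ∀ σ ∈ faces F 1, f σ = cobd 0 g σ) :
    UB col F (2 * lam) := by
  obtain ⟨L₀, hL₀, hL₀1, hUB₀⟩ := exists_UB_lt_one hR hM hlam (by linarith) hE
  set S : Set ℝ := {L | lam ≤ L ∧ UB col F L} with hS
  have hne : S.Nonempty := ⟨L₀, hL₀, hUB₀⟩
  have hbdd : BddBelow S := ⟨lam, fun L hL => hL.1⟩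
  set L := sInf S with hLdef
  have hlamL : lam ≤ L := le_csInf hne fun x hx => hx.1
  have hL1 : L < 1 := lt_of_le_of_lt (csInf_le hbdd ⟨hL₀, hUB₀⟩) hL₀1
  have hUB : UB col F L := by
    intro i j hij f g hf hg
    set A := ∑ τ ∈ F, cs col i f τ ^ 2 + ∑ τ ∈ F, cs col j g τ ^ 2 with hA
    have hA0 : 0 ≤ A := by positivity
    refine le_of_forall_pos_le_add fun e he => ?_
    obtain ⟨x, hx, hxlt⟩ := exists_lt_of_csInf_lt hne
      (show L < L + 2 * e / (A + 1) by linarith [show 0 < 2 * e / (A + 1) by positivity])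
    have h1 := hx.2 i j hij f g hf hg
    have h2 := mul_le_mul_of_nonneg_right hxlt.le hA0
    have h3 : (L + 2 * e / (A + 1)) * A = L * A + 2 * (e * (A / (A + 1))) := by ring
    have h4 : e * (A / (A + 1)) ≤ e * 1 :=
      mul_le_mul_of_nonneg_left ((div_le_one (by linarith)).mpr (by linarith)) he.le
    linarith
  have hstep := hUB.trickle hR hM hlam.le (by linarith) hr (hlam.trans_le hlamL)
  have hmem : (1 - lam) * L ^ 2 + lam ∈ S := by
    refine ⟨?_, hstep⟩
    have : 0 ≤ (1 - lam) * L ^ 2 := mul_nonneg (by linarith) (sq_nonneg L)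
    linarith
  have hfix : L ≤ (1 - lam) * L ^ 2 + lam := csInf_le hbdd hmem
  have hprod : (1 - L) * ((1 - lam) * L - lam) ≤ 0 := by nlinarith
  have hsmall : (1 - lam) * L - lam ≤ 0 := nonpos_of_mul_nonpos_right hprod (by linarith)
  have hL2 : L ≤ 2 * lam := by
    have := mul_le_mul_of_nonneg_right hlam2 (hlam.le.trans hlamL)
    linarith
  intro i j hij f g hf hg
  refine (hUB i j hij f g hf hg).trans (mul_le_mul_of_nonneg_right (by linarith) ?_)
  positivity

/-- Mixing in all links, the empty face included. -/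
theorem link_mixing (hR : Rainbow r col F) (hM : PairMix lam col F) (hlam : 0 < lam)
    (hlam2 : lam ≤ 1 / 2) (hr : 3 ≤ r)
    (hE : ∀ f : Finset α → ZMod 2, (∀ τ ∈ faces F 2, cobd 1 f τ = 0) →
      ∃ g, ∀ σ ∈ faces F 1, f σ = cobd 0 g σ) :
    LinkMixing F (r - 1) ((r : ℝ) ^ 2) (2 * (r : ℝ) ^ 2 * lam) := by
  classical
  intro η hηc hηF A hA hAη
  have hηface : IsFace F η := (mem_faces.mp hηF).1
  set G := F.filter (fun τ => η ⊆ τ) with hG
  have hN : (0 : ℝ) < G.card := by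
    obtain ⟨T, hT, hsub⟩ := hηface
    exact_mod_cast Finset.card_pos.mpr ⟨T, Finset.mem_filter.mpr ⟨hT, hsub⟩⟩
  -- general mixing in the link of `η`
  have hmix : ∀ i j : Fin r, i ≠ j → i ∉ η.image col → j ∉ η.image col → ∀ f g : α → ℝ,
      ∑ τ ∈ G, cs col i f τ * cs col j g τ ≤
        (∑ τ ∈ G, cs col i f τ) * (∑ τ ∈ G, cs col j g τ) / G.card +
          lam * (∑ τ ∈ G, cs col i f τ ^ 2 + ∑ τ ∈ G, cs col j g τ ^ 2) := by
    intro i j hij hi hj f g
    rcases η.eq_empty_or_nonempty with h0 | hne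
    · have hGF : G = F := by rw [hG, h0]; simp
      rw [hGF] at hN ⊢
      set n : ℝ := (F.card : ℝ)
      set p := ∑ τ ∈ F, cs col i f τ with hp
      set q := ∑ τ ∈ F, cs col j g τ with hq
      have hshift : ∀ (k : Fin r) (h : α → ℝ) (c : ℝ), ∀ τ ∈ F,
          cs col k (fun a => h a - c) τ = cs col k h τ - c := by
        intro k h c τ hτ
        obtain ⟨a, ha, hak, -⟩ := exists_color hR hτ k
        rw [cs_eq hR hτ ha hak, cs_eq hR hτ ha hak]
      have hzero : ∀ (k : Fin r) (h : α → ℝ),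
          ∑ τ ∈ F, cs col k (fun a => h a - (∑ τ ∈ F, cs col k h τ) / n) τ = 0 := by
        intro k h
        rw [Finset.sum_congr rfl (hshift k h _), Finset.sum_sub_distrib, Finset.sum_const,
          nsmul_eq_mul, mul_div_cancel₀ _ hN.ne', sub_self]
      have h := UB_two_lam hR hM hlam hlam2 hr hE i j hij (fun a => f a - p / n)
        (fun a => g a - q / n) (hzero i f) (hzero j g)
      rw [Finset.sum_congr rfl (fun τ hτ => by rw [hshift i f _ τ hτ, hshift j g _ τ hτ] :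
          ∀ τ ∈ F, cs col i (fun a => f a - p / n) τ * cs col j (fun a => g a - q / n) τ =
            (cs col i f τ - p / n) * (cs col j g τ - q / n)),
        Finset.sum_congr rfl (fun τ hτ => by rw [hshift i f _ τ hτ] :
          ∀ τ ∈ F, cs col i (fun a => f a - p / n) τ ^ 2 = (cs col i f τ - p / n) ^ 2),
        Finset.sum_congr rfl (fun τ hτ => by rw [hshift j g _ τ hτ] :
          ∀ τ ∈ F, cs col j (fun a => g a - q / n) τ ^ 2 = (cs col j g τ - q / n) ^ 2)] at h
      simp only [sub_mul, mul_sub, sub_sq, Finset.sum_add_distrib, Finset.sum_sub_distrib,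
        ← Finset.sum_mul, ← Finset.mul_sum, Finset.sum_const, nsmul_eq_mul, ← hp, ← hq] at h
      have e1 : n * (p / n) * (q / n) = p * q / n := by
        field_simp
      have e2 : ∀ x : ℝ, n * (x / n) ^ 2 = x ^ 2 / n := fun x => by
        field_simp
      have e3 : p / n * q = p * q / n := by ring
      have e4 : p * (q / n) = p * q / n := by ring
      have e5 : ∀ x : ℝ, 2 * x * (x / n) = 2 * (x ^ 2 / n) := fun x => by ring
      have := mul_nonneg hlam.le (div_nonneg (sq_nonneg p) hN.le)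
      have := mul_nonneg hlam.le (div_nonneg (sq_nonneg q) hN.le)
      rw [e1, e3, e4, e2 p, e2 q, e5 p, e5 q] at h
      linarith
    · refine (local_mix hR hM hlam.le hne hηface hij hi hj f g).trans ?_
      rw [← hG]
      have h1 := mul_nonneg hlam.le (div_nonneg (sq_nonneg (∑ τ ∈ G, cs col i f τ)) hN.le)
      have h2 := mul_nonneg hlam.le (div_nonneg (sq_nonneg (∑ τ ∈ G, cs col j g τ)) hN.le)
      have h3 : 0 ≤ lam * ∑ τ ∈ G, cs col i f τ ^ 2 := by positivity
      have h4 : 0 ≤ lam * ∑ τ ∈ G, cs col j g τ ^ 2 := by positivity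
      linarith
  set one : α → ℝ := fun a => if a ∉ η ∧ insert a η ∈ A then 1 else 0 with hone
  set S : ℝ := (mass F A : ℝ) with hSdef
  have hmassA : S = ∑ T ∈ F, ((A.filter fun σ => σ ⊆ T).card : ℝ) := by
    rw [hSdef, mass]
    push_cast [cnt, Finset.card_filter]
    exact Finset.sum_comm
  have hcard : ∀ (i : Fin r) (T : Finset α), cs col i one T =
      ((T.filter fun a => col a = i ∧ a ∉ η ∧ insert a η ∈ A).card : ℝ) := by
    intro i T
    rw [cs, hone, ← Finset.filter_filter, Finset.sum_boole]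
  have hpart : ∀ i : Fin r, ∑ T ∈ G, cs col i one T ≤ S := by
    intro i
    rw [hmassA]
    refine le_trans (Finset.sum_le_sum fun T hT => ?_)
      (Finset.sum_le_sum_of_subset_of_nonneg (Finset.filter_subset _ _)
        fun _ _ _ => Nat.cast_nonneg _)
    rw [hcard]
    refine Nat.cast_le.mpr (Finset.card_le_card_of_injOn (fun a => insert a η) ?_ ?_)
    · intro a ha
      obtain ⟨haT, -, -, haA⟩ := Finset.mem_filter.mp ha
      exact Finset.mem_filter.mpr ⟨haA, Finset.insert_subset haT (Finset.mem_filter.mp hT).2⟩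
    · intro a ha b hb hab
      have hab' : insert a η = insert b η := hab
      have h1 : a ∈ insert b η := hab' ▸ Finset.mem_insert_self a η
      exact (Finset.mem_insert.mp h1).resolve_right (Finset.mem_filter.mp ha).2.2.1
  have hsq : ∀ (i : Fin r), ∀ T ∈ G, cs col i one T ^ 2 = cs col i one T := by
    intro i T hT
    obtain ⟨a, ha, hai, -⟩ := exists_color hR (Finset.mem_filter.mp hT).1 i
    rw [cs_eq hR (Finset.mem_filter.mp hT).1 ha hai]
    simp only [hone]
    split <;> norm_num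
  set types := ((Finset.univ : Finset (Fin r)) ×ˢ Finset.univ).filter fun w => w.1 ≠ w.2
    with htypes
  set bad := (faces F (η.card + 2)).filter fun τ =>
    ∃ σ ∈ A, ∃ σ' ∈ A, σ ≠ σ' ∧ σ ⊆ τ ∧ σ' ⊆ τ with hbad
  have hget : ∀ σ ∈ A, ∃ a, a ∉ η ∧ insert a η = σ := by
    intro σ hσ
    have hσc := (mem_faces.mp (hA hσ)).2
    obtain ⟨a, ha⟩ : ∃ a, σ \ η = {a} := Finset.card_eq_one.mp (by
      rw [Finset.card_sdiff_of_subset (hAη σ hσ)]; omega)
    have ham : a ∈ σ ∧ a ∉ η := by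
      rw [← Finset.mem_sdiff, ha]; exact Finset.mem_singleton_self a
    exact ⟨a, ham.2, Finset.eq_of_subset_of_card_le
      (Finset.insert_subset ham.1 (hAη σ hσ))
      (by rw [Finset.card_insert_of_notMem ham.2]; omega)⟩
  have hbadT : ∀ T ∈ F, ((bad.filter fun τ => τ ⊆ T).card : ℝ) ≤
      if η ⊆ T then ∑ w ∈ types, cs col w.1 one T * cs col w.2 one T else 0 := by
    intro T hT
    by_cases hηT : η ⊆ T
    swap
    · rw [if_neg hηT]
      norm_cast
      rw [Nat.le_zero, Finset.card_eq_zero, Finset.filter_eq_empty_iff]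
      intro τ hτ hτT
      obtain ⟨-, σ, hσ, -, -, -, hστ, -⟩ := Finset.mem_filter.mp hτ
      exact hηT ((hAη σ hσ).trans (hστ.trans hτT))
    rw [if_pos hηT]
    simp only [hcard]
    norm_cast
    refine (Finset.card_le_card (t := types.biUnion fun w =>
      ((T.filter fun a => col a = w.1 ∧ a ∉ η ∧ insert a η ∈ A) ×ˢ
        (T.filter fun a => col a = w.2 ∧ a ∉ η ∧ insert a η ∈ A)).image
          fun z => insert z.2 (insert z.1 η)) fun τ hτ => ?_).trans
      (Finset.card_biUnion_le.trans (Finset.sum_le_sum fun w _ =>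
        Finset.card_image_le.trans (le_of_eq (Finset.card_product _ _))))
    obtain ⟨hτb, hτT⟩ := Finset.mem_filter.mp hτ
    obtain ⟨hτF, σ, hσ, σ', hσ', hne, hστ, hσ'τ⟩ := Finset.mem_filter.mp hτb
    obtain ⟨a, haη, rfl⟩ := hget σ hσ
    obtain ⟨b, hbη, rfl⟩ := hget σ' hσ'
    have hab : a ≠ b := fun h => hne (by rw [h])
    have haτ : a ∈ τ := hστ (Finset.mem_insert_self _ _)
    have hbτ : b ∈ τ := hσ'τ (Finset.mem_insert_self _ _)
    refine Finset.mem_biUnion.mpr ⟨(col a, col b), Finset.mem_filter.mpr ⟨by simp, fun h =>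
      hab (rainbow_injOn hR hT (hτT haτ) (hτT hbτ) h)⟩, Finset.mem_image.mpr ⟨(a, b),
      Finset.mem_product.mpr ⟨Finset.mem_filter.mpr ⟨hτT haτ, rfl, haη, hσ⟩,
        Finset.mem_filter.mpr ⟨hτT hbτ, rfl, hbη, hσ'⟩⟩, ?_⟩⟩
    refine Finset.eq_of_subset_of_card_le (Finset.insert_subset hbτ hστ) ?_
    rw [Finset.card_insert_of_notMem (by simp [hab.symm, hbη]),
      Finset.card_insert_of_notMem haη, (mem_faces.mp hτF).2]
  have hone' : ∀ w ∈ types, ∑ T ∈ G, cs col w.1 one T * cs col w.2 one T ≤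
      S ^ 2 / G.card + 2 * lam * S := by
    intro w hw
    have hS0 : 0 ≤ S := Nat.cast_nonneg _
    by_cases h : w.1 ∈ η.image col ∨ w.2 ∈ η.image col
    · rw [Finset.sum_eq_zero]
      · positivity
      intro T hT
      obtain ⟨hTF, hηT⟩ := Finset.mem_filter.mp hT
      have hz : ∀ k ∈ η.image col, cs col k one T = 0 := by
        intro k hk
        obtain ⟨a, ha, hak⟩ := Finset.mem_image.mp hk
        rw [cs_eq hR hTF (hηT ha) hak]
        simp [hone, ha]
      rcases h with h | h <;> simp [hz _ h]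
    push Not at h
    refine (hmix w.1 w.2 (Finset.mem_filter.mp hw).2 h.1 h.2 one one).trans ?_
    rw [Finset.sum_congr rfl (hsq w.1), Finset.sum_congr rfl (hsq w.2)]
    have h0 : ∀ k, 0 ≤ ∑ T ∈ G, cs col k one T := fun k =>
      Finset.sum_nonneg fun T _ => by rw [hcard]; exact Nat.cast_nonneg _
    refine add_le_add ?_ ?_
    · rw [sq]
      exact div_le_div_of_nonneg_right (mul_le_mul (hpart _) (hpart _) (h0 _) hS0) hN.le
    · have := mul_le_mul_of_nonneg_left (add_le_add (hpart w.1) (hpart w.2)) hlam.le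
      linarith
  have hbadmass : (mass F bad : ℝ) ≤
      ∑ w ∈ types, ∑ T ∈ G, cs col w.1 one T * cs col w.2 one T := by
    rw [mass]
    push_cast [cnt, Finset.card_filter]
    rw [Finset.sum_comm]
    refine (Finset.sum_le_sum (g := fun T => if η ⊆ T then
      ∑ w ∈ types, cs col w.1 one T * cs col w.2 one T else 0) fun T hT => ?_).trans ?_
    · have := hbadT T hT
      rw [Finset.card_filter, Nat.cast_sum] at this
      simpa [apply_ite (fun n : ℕ => (n : ℝ))] using this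
    · rw [← Finset.sum_filter, Finset.sum_comm]
  have htc : (types.card : ℝ) ≤ (r : ℝ) ^ 2 := by
    have h1 : types.card ≤ r ^ 2 := (Finset.card_filter_le _ _).trans (le_of_eq (by simp [sq]))
    exact_mod_cast h1
  refine hbadmass.trans ((Finset.sum_le_sum hone').trans ?_)
  rw [Finset.sum_const, nsmul_eq_mul]
  refine (mul_le_mul_of_nonneg_right htc (by positivity)).trans (le_of_eq ?_)
  show _ = (r : ℝ) ^ 2 * (S ^ 2 / (G.card : ℝ)) + 2 * (r : ℝ) ^ 2 * lam * S
  ring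

end Vale.Agent.P067.Full.Local
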