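import Vale.Agent.P067.Full.Statements
import Vale.Agent.P067.Full.Local.Mix
import Vale.Agent.HDX.General

/-!
Expansion of coloured homogeneous complexes and of their skeleta: proof of `LocalExpansion`.
-/

namespace Vale.Agent.P067.Full.Local

open Finset Vale.Agent.HDX Vale.Agent.HDX.Q

variable {α : Type*} [DecidableEq α] {r : ℕ} {col : α → Fin r} {F : Finset (Finset α)}

lemma faces_skeleton (hR : Rainbow r col F) {d j : ℕ} (hjd : j ≤ d + 1) (hdr : d + 1 ≤ r) :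
    faces (faces F (d + 1)) j = faces F j := by
  ext σ
  rw [mem_faces, mem_faces]
  refine and_congr_left fun hσ => ⟨?_, ?_⟩
  · rintro ⟨τ, hτ, hστ⟩
    obtain ⟨⟨T, hT, hτT⟩, -⟩ := mem_faces.mp hτ
    exact ⟨T, hT, hστ.trans hτT⟩
  · rintro ⟨T, hT, hσT⟩
    obtain ⟨τ, h1, h2, h3⟩ := Finset.exists_subsuperset_card_eq hσT (show σ.card ≤ d + 1 by omega)
      (by rw [(hR.2 T hT).1]; omega)
    exact ⟨τ, mem_faces.mpr ⟨⟨T, hT, h2⟩, h3⟩, h1⟩

lemma cnt_skeleton_le (hR : Rainbow r col F) (d : ℕ) (σ : Finset α) :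
    cnt (faces F (d + 1)) σ ≤ 2 ^ r * cnt F σ := by
  refine (Finset.card_le_card (t := (F.filter fun T => σ ⊆ T).biUnion fun T => T.powerset)
    fun τ hτ => ?_).trans (Finset.card_biUnion_le.trans ?_)
  · obtain ⟨hτF, hστ⟩ := Finset.mem_filter.mp hτ
    obtain ⟨⟨T, hT, hτT⟩, -⟩ := mem_faces.mp hτF
    exact Finset.mem_biUnion.mpr ⟨T, Finset.mem_filter.mpr ⟨hT, hστ.trans hτT⟩,
      Finset.mem_powerset.mpr hτT⟩
  · refine le_of_eq ((Finset.sum_const_nat (m := 2 ^ r) fun T hT => ?_).trans (mul_comm _ _))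
    rw [Finset.card_powerset, (hR.2 T (Finset.mem_filter.mp hT).1).1]

lemma cnt_le_skeleton (hR : Rainbow r col F) {d D j : ℕ} (hD : DegreeLE D F) (hj : 1 ≤ j)
    (hjd : j ≤ d + 1) (hdr : d + 1 ≤ r) {σ : Finset α} (hσ : σ ∈ faces F j) :
    cnt F σ ≤ D * cnt (faces F (d + 1)) σ := by
  obtain ⟨-, hc⟩ := mem_faces.mp hσ
  obtain ⟨x, hx⟩ : σ.Nonempty := Finset.card_pos.mp (by omega)
  have h1 : cnt F σ ≤ D := (Finset.card_le_card fun T hT => by
    obtain ⟨h1, h2⟩ := Finset.mem_filter.mp hT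
    exact Finset.mem_filter.mpr ⟨h1, h2 hx⟩).trans (hD x)
  rw [← faces_skeleton hR hjd hdr] at hσ
  obtain ⟨⟨τ, hτ, hστ⟩, -⟩ := mem_faces.mp hσ
  exact h1.trans (Nat.le_mul_of_pos_right D
    (Finset.card_pos.mpr ⟨τ, Finset.mem_filter.mpr ⟨hτ, hστ⟩⟩))

/-- The constant of the local-to-global theorem for `r` colours and cones of size `B`. -/
noncomputable def bigB (r B : ℕ) : ℝ :=
  4 * (((r - 1 : ℕ) : ℝ) + 2) * ((2 : ℝ) ^ (r - 1 + 1)) ^ 3 * (((2 ^ r * B : ℕ) : ℝ) + 1) *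
    ((r : ℝ) ^ 2 + 1)

lemma one_le_bigB (r B : ℕ) : 1 ≤ bigB r B := by
  refine one_le_mul_of_one_le_of_one_le (one_le_mul_of_one_le_of_one_le
    (one_le_mul_of_one_le_of_one_le ?_ (one_le_pow₀ (one_le_pow₀ one_le_two))) ?_) ?_
  · have : (0 : ℝ) ≤ ((r - 1 : ℕ) : ℝ) := Nat.cast_nonneg _
    linarith
  · have : (0 : ℝ) ≤ ((2 ^ r * B : ℕ) : ℝ) := Nat.cast_nonneg _
    linarith
  · have : (0 : ℝ) ≤ (r : ℝ) ^ 2 := sq_nonneg _
    linarith

/-- The product entering the smallness condition. -/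
noncomputable def bigQ (r B : ℕ) : ℝ := bigB r B * fatP (2 ^ (r - 1 + 1)) (bigB r B) (r - 1 + 1)

lemma one_le_bigQ (r B : ℕ) : 1 ≤ bigQ r B :=
  one_le_mul_of_one_le_of_one_le (one_le_bigB r B)
    (one_le_fatP (one_le_pow₀ one_le_two) (one_le_bigB r B) _)

/-- Bounded cones, mixing, exactness and bounded degree give coboundary expansion. -/
theorem localExpansion : LocalExpansion := by
  intro d r B hd hdr
  have hr : 3 ≤ r := by omega
  have hQ1 := one_le_bigQ r B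
  have hrpos : (0 : ℝ) < r := by exact_mod_cast (show 0 < r by omega)
  set lam : ℝ := min (1 / 2) (1 / (2 * (r : ℝ) ^ 2 * bigQ r B)) with hlam
  have hlam0 : 0 < lam := lt_min (by norm_num) (by positivity)
  refine ⟨lam, hlam0, fun D => ?_⟩
  set E : ℝ := ((2 : ℝ) ^ r * ((2 : ℝ) ^ (r - 1 + 1) * bigQ r B) * (D + 1)) * (2 : ℝ) ^ (d + 1)
    with hE
  have hE0 : 0 < E := by positivity
  refine ⟨1 / E, one_div_pos.mpr hE0, fun α _ col F hR hH hC hM hX hD => ?_⟩
  have hexp : IsCoboundaryExpander d (1 / E) (faces F (d + 1)) := by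
    intro i hi f
    have hsmall : 2 * (r : ℝ) ^ 2 * lam *
        (bigB r B * fatP (2 ^ (r - 1 + 1)) (bigB r B) (r - 1 + 1)) ≤ 1 := by
      show 2 * (r : ℝ) ^ 2 * lam * bigQ r B ≤ 1
      have h1 : lam ≤ 1 / (2 * (r : ℝ) ^ 2 * bigQ r B) := min_le_right _ _
      rw [le_div_iff₀ (by positivity)] at h1
      linarith
    obtain ⟨g, hg⟩ := expansion (F := F) (D := r - 1) (j := i + 1)
      (fun τ hτ => by rw [(hR.2 τ hτ).1]; omega) (by omega)
      (K := ((2 ^ r * B : ℕ) : ℝ)) (Nat.cast_nonneg _) (Cm := (r : ℝ) ^ 2) (by positivity)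
      (lam := 2 * (r : ℝ) ^ 2 * lam) (by positivity)
      (link_expansion hR hH hC (by omega))
      (link_mixing hR hM hlam0 (min_le_left _ _) hr fun f hf => hX 1 hd f hf)
      le_rfl hsmall (fun f hf => hX (i + 1) (by omega) f hf) f
    rw [Nat.add_sub_cancel] at hg
    refine ⟨g, ?_⟩
    set F' := faces F (d + 1) with hF'
    have hF'0 : (0 : ℝ) < F'.card := by
      obtain ⟨T, hT⟩ := hR.1
      obtain ⟨τ, hτT, hτc⟩ := Finset.exists_subset_card_eq
        (show d + 1 ≤ T.card by rw [(hR.2 T hT).1]; omega)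
      exact_mod_cast Finset.card_pos.mpr ⟨τ, mem_faces.mpr ⟨⟨T, hT, hτT⟩, hτc⟩⟩
    have hnorm : ∀ (c : ℕ) (u : Finset α → ZMod 2), coNorm d F' c u =
        (mass F' (suppOn F' c u) : ℝ) / ((((d + 1).choose c : ℕ) : ℝ) * F'.card) := by
      intro c u
      rw [mass]
      push_cast
      rw [Finset.sum_div]
      refine Finset.sum_congr rfl fun σ hσ => ?_
      rw [faceWeight, (mem_faces.mp (Finset.mem_filter.mp hσ).1).2]
      rfl
    have hsupp : ∀ (c : ℕ) (u : Finset α → ZMod 2), c ≤ d + 1 →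
        suppOn F' c u = suppOn F c u := fun c u hc => by
      rw [suppOn, suppOn, hF', faces_skeleton hR hc (by omega)]
    have hsub : (fun σ => f σ - cobd i g σ) = fun σ => f σ + cobd i g σ :=
      funext fun σ => CharTwo.sub_eq_add _ _
    rw [hnorm, hnorm, hsub, one_div, inv_mul_le_iff₀ hE0, hsupp _ _ (by omega),
      hsupp _ _ (by omega)]
    set S1 := suppOn F (i + 1) fun σ => f σ + cobd i g σ with hS1
    set S2 := suppOn F (i + 1 + 1) (cobd (i + 1) f) with hS2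
    have hup : (mass F' S1 : ℝ) ≤ (2 : ℝ) ^ r * mass F S1 := by
      have : mass F' S1 ≤ 2 ^ r * mass F S1 := by
        rw [mass, mass, Finset.mul_sum]
        exact Finset.sum_le_sum fun σ _ => cnt_skeleton_le hR d σ
      exact_mod_cast this
    have hdown : (mass F S2 : ℝ) ≤ ((D : ℝ) + 1) * mass F' S2 := by
      have : mass F S2 ≤ (D + 1) * mass F' S2 := by
        rw [mass, mass, Finset.mul_sum]
        exact Finset.sum_le_sum fun σ hσ => (cnt_le_skeleton hR hD (by omega : 1 ≤ i + 1 + 1)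
          (by omega) (by omega) (Finset.mem_filter.mp hσ).1).trans
          (Nat.mul_le_mul_right _ (Nat.le_succ D))
      exact_mod_cast this
    have hm : (mass F' S1 : ℝ) ≤
        (2 : ℝ) ^ r * ((2 : ℝ) ^ (r - 1 + 1) * bigQ r B) * (D + 1) * mass F' S2 := by
      refine hup.trans ?_
      have h1 : (mass F S1 : ℝ) ≤ (2 : ℝ) ^ (r - 1 + 1) * bigQ r B * mass F S2 := hg
      calc (2 : ℝ) ^ r * mass F S1
          ≤ (2 : ℝ) ^ r * ((2 : ℝ) ^ (r - 1 + 1) * bigQ r B * ((D + 1) * mass F' S2)) := by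
            refine mul_le_mul_of_nonneg_left (h1.trans ?_) (by positivity)
            exact mul_le_mul_of_nonneg_left hdown (by positivity)
        _ = _ := by ring
    have hc1 : (1 : ℝ) ≤ ((d + 1).choose (i + 1) : ℕ) := by
      exact_mod_cast Nat.choose_pos (by omega : i + 1 ≤ d + 1)
    have hc2 : (((d + 1).choose (i + 2) : ℕ) : ℝ) ≤ 2 ^ (d + 1) := by
      exact_mod_cast Nat.choose_le_two_pow (d + 1) (i + 2)
    have hc20 : (0 : ℝ) < ((d + 1).choose (i + 2) : ℕ) := by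
      exact_mod_cast Nat.choose_pos (by omega : i + 2 ≤ d + 1)
    calc (mass F' S1 : ℝ) / ((((d + 1).choose (i + 1) : ℕ) : ℝ) * F'.card)
        ≤ (mass F' S1 : ℝ) / F'.card := div_le_div_of_nonneg_left (Nat.cast_nonneg _) hF'0
            (le_mul_of_one_le_left hF'0.le hc1)
      _ ≤ (2 : ℝ) ^ r * ((2 : ℝ) ^ (r - 1 + 1) * bigQ r B) * (D + 1) * mass F' S2 / F'.card :=
          div_le_div_of_nonneg_right hm hF'0.le
      _ ≤ (2 : ℝ) ^ r * ((2 : ℝ) ^ (r - 1 + 1) * bigQ r B) * (D + 1) * mass F' S2 / F'.card *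
          ((2 : ℝ) ^ (d + 1) / ((d + 1).choose (i + 2) : ℕ)) :=
          le_mul_of_one_le_right (by positivity) ((one_le_div hc20).mpr hc2)
      _ = E * ((mass F' S2 : ℝ) / ((((d + 1).choose (i + 2) : ℕ) : ℝ) * F'.card)) := by
          rw [hE]
          field_simp
  exact ⟨hexp, connected_of_expander hd (one_div_pos.mpr hE0) hexp⟩

end Vale.Agent.P067.Full.Local
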